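import Crest.Agent.X277.GF.BDa
import Crest.Agent.X277.GF.Prj
import Crest.Agent.X277.GF.LD
import Crest.Agent.X277.BD.Vol
import Crest.Agent.X277.Fib.F3
import Crest.Agent.R273.FG_259

/-!
# Row 262 (helper95): projection formulas for b-divisors

* `bnum_cv`  : the numbers of the generic member of a covering family;
* `dim_tower`, `bnum_prj` : base times generic fibre;
* `bnum_nil`, `bnum_up_fin`, `finrank_dvd_bnum` : constants of the field;
* `bnum_ld`, `bnum_bdK`, `bnum_bd` : constant field extensions;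
* `cf h`, `bs h`, `dl h`, `bnum_cf` : the field of the image of a free class, the polarisation of
  the image, its degree, and the numbers on the generic fibre.
-/

set_option autoImplicit false
set_option linter.unusedSectionVars false

noncomputable section

namespace Crest.Agent.X262.Loc

open Crest.Agent.R274
open Cx_781 Defs_781 Ses_781 Lat_781 Ser_781 Snap_413 Coh_413 PolyFun_413 Finset
open Crest.Agent.X277 Crest.Agent.X277.BD Crest.Agent.X277.GF
open Crest.Agent.X277.AN Crest.Agent.X277.AN.G2
open Num_413 (cc)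
open List (replicate)

universe u

section Cv

variable {k F k' F' : Type u} [Field k] [Field F] [Algebra k F] [Field k'] [Field F']
  [Algebra k' F'] [CharZero k] [CharZero k'] [Algebra.EssFiniteType k F]
  [Algebra.EssFiniteType k' F'] (Q : Cv k F k' F')

theorem dim_cv (M : Mdl k F) : dim k' F' = Q.d M.S := by
  obtain ⟨M', -⟩ := Q.exists_mdl M
  exact Q.d_model M.S M'.X

/-- the numbers of the generic member of a covering family -/
theorem bnum_cv (M : Mdl k F) {l : List M.On} (hl : l.length = dim k' F') :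
    bnum (l.map fun a => mp Q.j Q.ov a.1) = inter (Q.chi M.S) l := by
  obtain ⟨M', hH⟩ := Q.exists_mdl M
  rw [← Q.num_model (fm_mdl hH) hl]
  exact bnum_eq' _ (by rw [List.map_map]; rfl) (by simpa using hl)


variable {Q}

theorem dim_ld (h : Q.LD) : dim k' F' = dim k F := by
  obtain ⟨M⟩ := (inferInstance : Nonempty (Mdl k F))
  rw [dim_cv Q M, (h.chi_eq M.S).2]

/-- **invariance of the numbers under constant field extension** -/
theorem bnum_ld (h : Q.LD) (l : List (BD k F)) : bnum (l.map (mp Q.j Q.ov)) = bnum l := by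
  by_cases hl : l.length = dim k F
  · obtain ⟨M, hM⟩ := BD.exists_mdl l
    have e : (l.attachWith _ hM).map Subtype.val = l := by simp
    have h1 := bnum_cv Q M (l := l.attachWith _ hM) (by simpa [dim_ld h] using hl)
    rw [(h.chi_eq M.S).1] at h1
    rw [bnum_eq' _ e hl]
    refine Eq.trans ?_ h1
    conv_lhs => rw [← e, List.map_map]
    rfl
  · rw [bnum_of_ne hl, bnum_of_ne (by simpa [dim_ld h] using hl)]

end Cv

section Tower

variable {k K F : Type u} [Field k] [Field K] [Field F] [Algebra k K] [Algebra K F] [Algebra k F]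
  [IsScalarTower k K F] [CharZero k] [CharZero K] [Algebra.EssFiniteType k F]
  [Algebra.EssFiniteType k K] [Algebra.EssFiniteType K F]

variable (k K F) in
theorem dim_tower : dim k F = dim k K + dim K F := by
  obtain ⟨M⟩ := (inferInstance : Nonempty (Mdl k F))
  obtain ⟨T⟩ := (inferInstance : Nonempty (Mdl k K))
  rw [dim_cv (Cv.tow k K F) M]
  exact dim_add T.X M.S

/-- **projection formula**: classes from the base times classes of the total space -/
theorem bnum_prj (l : List (BD k F)) {lam : List (BD k K)} (hlam : lam.length = dim k K) :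
    bnum (l ++ lam.map (pb (IsScalarTower.toAlgHom k K F))) = bnum lam * bnum (l.map (up K)) := by
  by_cases hl : l.length = dim K F
  · obtain ⟨T, hT⟩ := BD.exists_mdl lam
    obtain ⟨M, hM⟩ := BD.exists_mdl (pb (IsScalarTower.toAlgHom k K F) T.H :: l)
    have hH : mp (algebraMap K F) (alg_ov (IsScalarTower.toAlgHom k K F)) T.H ∈ M.On :=
      hM _ List.mem_cons_self
    have hM' : ∀ a ∈ l, a ∈ M.On := fun a ha => hM a (List.mem_cons_of_mem _ ha)
    have e : (l.attachWith _ hM').map Subtype.val = l := by simp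
    have e' : (lam.attachWith _ hT).map Subtype.val = lam := by simp
    have h1 := num_prj (fm_mdl hH) (l.attachWith _ hM') (b := lam.attachWith _ hT)
      (by simpa using hlam)
    have h2 := bnum_cv (Cv.tow k K F) M (l := l.attachWith _ hM') (by simpa using hl)
    rw [← h2, ← bnum_eq' _ e' hlam] at h1
    rw [bnum_eq' (l.attachWith _ hM' ++ (lam.attachWith _ hT).map (mh hH)) ?_
      (by simp [hl, hlam, dim_tower k K F, add_comm]), h1]
    · congr 2
      conv_rhs => rw [← e, List.map_map]
      rfl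
    · rw [List.map_append, e, List.map_map]
      congr 1
      conv_rhs => rw [← e', List.map_map]
      rfl
  · rw [bnum_of_ne (l := l.map _) (by simpa using hl), mul_zero, bnum_of_ne]
    simpa [hlam, dim_tower k K F, add_comm] using hl

theorem bnum_prj' (l : List (BD k F)) {lam : List (BD k K)} (hlam : lam.length = dim k K) :
    bnum (lam.map (pb (IsScalarTower.toAlgHom k K F)) ++ l) = bnum lam * bnum (l.map (up K)) := by
  rw [bnum_comm, bnum_prj l hlam]


omit [Algebra.EssFiniteType k K] in
/-- a finite extension of the ground field -/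
theorem dim_eq_zero_iff : dim K F = 0 ↔ Module.Finite K F := by
  have h := deg_pos_iff (k := K) (F := K) (E := F) (IsScalarTower.toAlgHom K K F)
  have h0 : dim K K = 0 := by
    have h1 := trdeg_eq_dim (k := K) (F := K)
    rw [trdeg_eq_zero] at h1
    exact_mod_cast h1.symm
  rw [deg_tower, h0] at h
  refine ⟨fun h1 => Module.finite_of_finrank_pos (h.2 h1), fun _ => h.1 Module.finrank_pos⟩

omit [Algebra.EssFiniteType k K] in
theorem dim_self : dim K K = 0 := dim_eq_zero_iff.2 inferInstance

omit [Algebra.EssFiniteType k K] in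
/-- the empty product is the degree of the field -/
theorem bnum_nil (K F : Type u) [Field K] [Field F] [Algebra K F] [CharZero K]
    [Algebra.EssFiniteType K F] : bnum ([] : List (BD K F)) = Module.finrank K F := by
  by_cases hd : dim K F = 0
  · obtain ⟨M⟩ := (inferInstance : Nonempty (Mdl K F))
    rw [bnum_eq' (M := M) (l := []) [] rfl hd.symm]
    obtain ⟨X, S, h⟩ : ∃ (X : Var K F 0) (S : Pol X M.On),
        num M.S (OX M.X) [] = num S (OX X) [] := by
      have : ∀ (n : ℕ) (X : Var K F n) (S : Pol X M.On), n = 0 → ∃ (X' : Var K F 0)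
          (S' : Pol X' M.On), num S (OX X) [] = num S' (OX X') [] := by
        rintro n X S rfl
        exact ⟨X, S, rfl⟩
      exact this _ M.X M.S hd
    rw [h]
    exact cc_point S 0
  · rw [bnum_of_ne (Ne.symm hd), Module.finrank_of_not_finite (dim_eq_zero_iff.not.1 hd)]
    rfl

/-- enlarging the ground field by a finite extension divides the numbers by its degree -/
theorem bnum_up_fin [Module.Finite k K] (l : List (BD k F)) :
    bnum l = Module.finrank k K * bnum (l.map (up K)) := by
  have h := bnum_prj (K := K) l (lam := []) (dim_eq_zero_iff.2 inferInstance).symm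
  rwa [List.map_nil, List.append_nil, bnum_nil] at h

theorem finrank_dvd_bnum [Module.Finite k K] (l : List (BD k F)) :
    (Module.finrank k K : ℤ) ∣ bnum l := ⟨_, bnum_up_fin l⟩

theorem dim_fin [Module.Finite k K] : dim k F = dim K F := by
  rw [dim_tower k K F, dim_eq_zero_iff.2 inferInstance, zero_add]


end Tower

section Sub

variable {k F : Type u} [Field k] [Field F] [Algebra k F] [CharZero k] [Algebra.EssFiniteType k F]
  (K : IntermediateField k F)

instance eftSub : Algebra.EssFiniteType k K := R273.FG_259.essFiniteType_of_le K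

instance eftTop : Algebra.EssFiniteType K F := Algebra.EssFiniteType.of_comp k K F

omit [CharZero k] [Algebra.EssFiniteType k F] in
theorem val_eq : K.val = IsScalarTower.toAlgHom k K F := AlgHom.ext fun _ => rfl

theorem bnum_prj_val (l : List (BD k F)) {lam : List (BD k K)} (hlam : lam.length = dim k K) :
    bnum (l ++ lam.map (pb K.val)) = bnum lam * bnum (l.map (up K)) := by
  rw [val_eq, bnum_prj l hlam]

end Sub

section Fib

variable {Ω K F : Type} [Field Ω] [Field K] [Field F] [Algebra K F] (φ : Fib.Fib Ω K F)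



variable [CharZero K] [Algebra.EssFiniteType K F]



variable [CharZero Ω] [Algebra.EssFiniteType Ω φ.E]




end Fib

section Cf

variable {k F : Type u} [Field k] [Field F] [Algebra k F] {h h' : BD k F} {x : F}

/-- the field of the (Stein factorisation of the) image of a class -/
def cf (h : BD k F) : IntermediateField k F := (algebraicClosure h.sf F).restrictScalars k

theorem mem_cf : x ∈ cf h ↔ IsAlgebraic h.sf x := mem_algebraicClosure_iff

theorem sf_le_cf (h : BD k F) : h.sf ≤ cf h := fun x hx =>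
  mem_cf.2 (isAlgebraic_algebraMap (⟨x, hx⟩ : h.sf))

theorem div_mem_cf {f g : F} (hf : f ∈ h.Sec) (hg : g ∈ h.Sec) : f / g ∈ cf h :=
  sf_le_cf h (div_mem_sf hf hg)

theorem alg_cl {L : IntermediateField k F}
    (hx : IsAlgebraic ((algebraicClosure L F).restrictScalars k) x) : IsAlgebraic L x := by
  have h1 : IsAlgebraic (algebraicClosure L F) x := hx
  exact h1.restrictScalars L

/-- `cf h` is algebraically closed in `F` -/
theorem cf_cl (hx : IsAlgebraic (cf h) x) : x ∈ cf h := mem_cf.2 (alg_cl hx)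

theorem cf_closure (h : BD k F) : algebraicClosure (cf h) F = ⊥ :=
  eq_bot_iff.2 fun x hx => ⟨⟨x, cf_cl (mem_algebraicClosure_iff.1 hx)⟩, rfl⟩

theorem cf_le {K : IntermediateField k F} (hK : ∀ x, IsAlgebraic K x → x ∈ K) (h1 : h.sf ≤ K) :
    cf h ≤ K := fun x hx => hK x (isAlg_mono h1 (mem_cf.1 hx))

theorem cf_mono (h1 : h.sf ≤ h'.sf) : cf h ≤ cf h' :=
  cf_le (fun _ => cf_cl) (h1.trans (sf_le_cf h'))

theorem cf_le_add (h : BD k F) (h1 : Eff h') : cf h ≤ cf (h + h') := by
  obtain ⟨g, hg, h0⟩ := h1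
  exact cf_mono (sf_le_add hg h0)

theorem Lin.sf_eq (e : Lin h h') : h.sf = h'.sf := by
  have key : ∀ {a b : BD k F}, Lin a b → b.sf ≤ a.sf := fun ⟨f, hf, e⟩ =>
    e ▸ sf_le_add (mem_Sec_pr f) hf
  exact le_antisymm (key e.symm) (key e)

theorem Lin.cf_eq (e : Lin h h') : cf h = cf h' :=
  le_antisymm (cf_mono (Lin.sf_eq e).le) (cf_mono (Lin.sf_eq e).ge)

theorem cf_mxf {ι : Type*} [Fintype ι] {t : ι → F} (ht : ∃ i, t i ≠ 0) :
    x ∈ cf (mxf k t) ↔ IsAlgebraic (qf k t) x := by
  refine ⟨fun hx => ?_, fun hx => mem_cf.2 (isAlg_mono (qf_le_sf t) hx)⟩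
  have h1 : cf (mxf k t) ≤ (algebraicClosure (qf k t) F).restrictScalars k := by
    refine cf_le (fun y hy => mem_algebraicClosure_iff.2 (alg_cl hy))
      (IntermediateField.adjoin_le_iff.2 ?_)
    rintro _ ⟨f, hf, g, hg, rfl⟩
    exact mem_algebraicClosure_iff.2 (isAlg_div hf hg ht)
  exact mem_algebraicClosure_iff.1 (h1 hx)

/-- a free class whose sections have quotients in `K` comes from `K` -/
theorem exists_pb_of_le (hh : Free h) {K : IntermediateField k F} (hK : h.sf ≤ K) :
    ∃ h0 : BD k K, Free h0 ∧ Lin h (pb K.val h0) := by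
  obtain ⟨r, s, h0, h1, h2⟩ := hh.exists_fam
  refine ⟨mxf k fun i => (⟨s i / s 0, hK (div_mem_sf (h1 i) (h1 0))⟩ : K), free_mxf _, s 0, h0 0,
    ?_⟩
  rw [pb_mxf, ← sub_eq_iff_eq_add]
  refine eq_mxf (fun i => (mem_Sec_sub_pr (h0 0)).2 ?_) fun V => ?_
  · change s i / s 0 * s 0 ∈ _
    rw [div_mul_cancel₀ _ (h0 0)]
    exact h1 i
  · obtain ⟨i, hi⟩ := h2 V
    refine ⟨i, ?_⟩
    change V.v (s i / s 0) = _
    rw [val_sub, val_pr (h0 0), map_div₀, hi]

theorem sf_pb_le {K : IntermediateField k F} (hK : ∀ x, IsAlgebraic K x → x ∈ K) {a : BD k K}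
    (ha : Free a) : (pb K.val a).sf ≤ K := by
  obtain ⟨r, s, h0, h1, h2⟩ := ha.exists_fam
  rw [eq_mxf h1 h2, pb_mxf]
  refine IntermediateField.adjoin_le_iff.2 ?_
  rintro _ ⟨f, hf, g, hg, rfl⟩
  refine hK _ (isAlg_mono (IntermediateField.adjoin_le_iff.2 ?_)
    (isAlg_div hf hg ⟨0, (map_ne_zero K.val).2 (h0 0)⟩))
  rintro _ ⟨i, j, rfl⟩
  exact div_mem (s j).2 (s i).2

theorem cf_nsmul (hh : Free h) {m : ℕ} (hm : 0 < m) : cf (m • h) = cf h := by
  refine le_antisymm ?_ ?_
  · obtain ⟨h0, h1, h2⟩ := exists_pb_of_le hh (sf_le_cf h)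
    rw [Lin.cf_eq (h2.nsmul m), ← map_nsmul]
    exact cf_le (fun _ => cf_cl) (sf_pb_le (fun _ => cf_cl) (h1.nsmul m))
  · obtain ⟨m, rfl⟩ := Nat.exists_eq_succ_of_ne_zero hm.ne'
    rw [succ_nsmul']
    exact cf_le_add h (hh.nsmul m).eff

variable [CharZero k] [Algebra.EssFiniteType k F]

theorem exists_bs (hh : Free h) : ∃ h0 : BD k (cf h), VA h0 ∧ Lin h (pb (cf h).val h0) := by
  obtain ⟨h0, h1, h2⟩ := exists_pb_of_le hh (sf_le_cf h)
  refine ⟨h0, va_of_alg h1 ⟨fun x => ?_⟩, h2⟩
  obtain ⟨r, s, h3, h4, h5⟩ := h1.exists_fam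
  have hx : (x : F) ∈ cf (mxf k fun i => (cf h).val (s i)) := by
    rw [← pb_mxf, ← eq_mxf h4 h5, ← Lin.cf_eq h2]
    exact x.2
  replace hx := (cf_mxf (t := fun i => (cf h).val (s i))
    ⟨0, (map_ne_zero (cf h).val).2 (h3 0)⟩).1 hx
  have hle : qf k (fun i => (cf h).val (s i)) ≤ h0.sf.map (cf h).val := by
    refine IntermediateField.adjoin_le_iff.2 ?_
    rintro _ ⟨i, j, rfl⟩
    exact ⟨s j / s i, div_mem_sf (h4 j) (h4 i), map_div₀ _ _ _⟩
  have h6 := isAlg_mono hle hx
  let e := IntermediateField.equivMap h0.sf (cf h).val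
  exact (isAlgebraic_algebraMap_iff (algebraMap (cf h) F).injective).1
    (h6.ringHom_of_comp_eq e.symm.toRingEquiv.toRingHom (RingHom.id F) e.symm.injective
      (RingHom.ext fun y => congrArg Subtype.val (e.apply_symm_apply y)))

open Classical in
/-- the polarisation of the image of a free class -/
def bs (h : BD k F) : BD k (cf h) := if hh : Free h then (exists_bs hh).choose else 0

theorem va_bs (hh : Free h) : VA (bs h) := by
  rw [bs, dif_pos hh]
  exact (exists_bs hh).choose_spec.1

theorem lin_bs (hh : Free h) : Lin h (pb (cf h).val (bs h)) := by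
  rw [bs, dif_pos hh]
  exact (exists_bs hh).choose_spec.2

/-- the degree of the image -/
def dl (h : BD k F) : ℤ := bnum (replicate (dim k (cf h)) (bs h))

theorem dl_pos (hh : Free h) : 0 < dl h :=
  bnum_pos (by simp) (all_rp ⟨(va_bs hh).nef, (va_bs hh).big⟩ _)

theorem lin_up_cf (hh : Free h) : Lin (up (cf h) h) 0 := by
  have h1 := (lin_bs hh).up (cf h)
  rwa [up_pb _ fun _ => rfl] at h1

theorem bnum_rep_lin (e : Lin h h') (i : ℕ) (l : List (BD k F)) :
    bnum (l ++ replicate i h) = bnum (l ++ replicate i h') := by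
  rw [bnum_comm, bnum_comm l]
  refine bnum_congr ?_ l
  induction i with
  | zero => exact List.Forall₂.nil
  | succ i ih => exact List.Forall₂.cons e ih

/-- **numbers on the generic fibre of the map of a free class** -/
theorem bnum_cf (hh : Free h) (l : List (BD k F)) :
    bnum (l ++ replicate (dim k (cf h)) h) = dl h * bnum (l.map (up (cf h))) := by
  rw [bnum_rep_lin (lin_bs hh), ← List.map_replicate, bnum_prj_val _ _ (by simp), dl]

theorem bnum_cf_zero (hh : Free h) (l : List (BD k F)) {i : ℕ} (hi : dim k (cf h) < i) :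
    bnum (l ++ replicate i h) = 0 := by
  rw [bnum_rep_lin (lin_bs hh), ← List.map_replicate, bnum_comm, bnum_pb_zero _ (by simpa)]

/-- the numerical dimension of a free class is the dimension of the image -/
theorem nu_eq_cf (hh : Free h) : h.nu = dim k (cf h) := by
  refine le_antisymm ((lin_bs hh).nu_eq ▸ nu_pb_le _ _) ?_
  obtain ⟨A, hA, -⟩ := exists_va k F
  refine le_nu (l := replicate (dim (cf h) F) A) ?_
  rw [bnum_comm, bnum_cf hh, List.map_replicate]
  exact mul_ne_zero (dl_pos hh).ne' (bnum_pos (by simp)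
    (all_rp ⟨hA.nef.up _, hA.big.up _⟩ _)).ne'

theorem dim_cf_add (h : BD k F) : dim k (cf h) + dim (cf h) F = dim k F :=
  (dim_tower k (cf h) F).symm

end Cf

end Crest.Agent.X262.Loc
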