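import Crest.Agent.X262.Loc95.Prj
import Crest.Agent.X277.BD.Cyc
import Crest.Agent.X277.Et.Crv
import Crest.Agent.R013.RR20_948

/-!
# Row 262 (helper95): b-divisors on a curve over an arbitrary field of characteristic zero

`F / K` with `dim K F = 1`; `K` need not be algebraically closed (in `F`).

* `Pt K F`, `rzP P`, `ordP P`, `dvC hd a`, `dvB hd D` : places, coefficients, Weil divisors;
* `bnum_eq_degD`, `degP_eq`, `bnum_dvB_single` : the degree;
* `big_iff_deg`, `nef_iff_deg`, `psef_iff_deg`, `lin_zero_of_eff`;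
* `bnum_pole` : the degree of a function.
-/

set_option autoImplicit false
set_option linter.unusedSectionVars false
set_option linter.style.haveILetI false

noncomputable section

namespace Crest.Agent.X262.Loc

open Crest.Agent.X277 Crest.Agent.X277.BD Crest.Agent.X277.BD.Cyc WithZero Filter Topology IntermediateField
open Crest.Agent.R013 RR8_948 RR9_948 RR11_948 RR12_948 RR20_948
open Module (finrank)

universe u

/-- places of a function field in one variable -/
abbrev Pt (K F : Type*) [Field K] [Field F] [Algebra K F] := RR7_948.Pl K F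

variable {K F : Type u} [Field K] [Field F] [Algebra K F]

theorem Pt.le (P : Pt K F) (c : K) : P.v (algebraMap K F c) ≤ 1 := Et.kv_plV P c

/-- the valuation ring of a place -/
def rzP (P : Pt K F) : RZ K F := rz P.v P.le

/-- the coefficient at a place -/
def ordP (P : Pt K F) : BD K F →+ ℤ := ord P.v P.le

variable {P Q : Pt K F} {a b : BD K F} {f g : F}

theorem mem_rzP : f ∈ (rzP P).1 ↔ P.v f ≤ 1 := Iff.rfl

theorem rzP_le_iff : (rzP P).v f ≤ (rzP P).v g ↔ P.v f ≤ P.v g := v_rz_le_iff _ _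

theorem rzP_lt_iff : (rzP P).v f < (rzP P).v g ↔ P.v f < P.v g := v_rz_lt_iff _ _


theorem le_ordP_iff : P.v f ≤ exp (ordP P a) ↔ (rzP P).v f ≤ a.val (rzP P) := by
  rw [ordP, exp_ord]
  exact le_vl_iff

theorem eq_ordP_iff : P.v f = exp (ordP P a) ↔ (rzP P).v f = a.val (rzP P) := by
  rw [ordP, exp_ord]
  exact eq_vl_iff

theorem ordP_le_iff : ordP P a ≤ ordP P b ↔ a.val (rzP P) ≤ b.val (rzP P) := ord_le_iff

theorem ordP_mono (h : a ≤ b) : ordP P a ≤ ordP P b := ord_mono h

theorem exp_ordP_pr (hf : f ≠ 0) : exp (ordP P (pr K f)) = P.v f :=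
  (eq_ordP_iff.2 (val_pr hf _).symm).symm

theorem ordP_sup (a b : BD K F) : ordP P (a ⊔ b) = max (ordP P a) (ordP P b) := ord_sup a b

theorem ordP_inf (a b : BD K F) : ordP P (a ⊓ b) = min (ordP P a) (ordP P b) := by
  rw [← neg_inj, ← map_neg, neg_inf, ordP_sup, map_neg, map_neg, max_neg_neg]

theorem rzP_ne_top (P : Pt K F) : (rzP P).1 ≠ ⊤ := fun h => by
  obtain ⟨t, -, ht⟩ := exists_v_eq P 1
  have h1 : t ∈ (rzP P).1 := h ▸ trivial
  rw [mem_rzP, ht, ← exp_zero, exp_le_exp] at h1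
  omega


/-- the degree of a place is the degree of its residue field -/
theorem degP_eq (P : Pt K F) : degP P = finrank K (Rf (rzP P)) := by
  let φ : ball P 0 →ₗ[K] Rf (rzP P) :=
    { toFun := fun x => (plV (rzP P)).r x
      map_add' := fun x y => Pl.r_add (mem_ball.1 x.2) (mem_ball.1 y.2)
      map_smul' := fun c x => by
        rw [RingHom.id_apply, Submodule.coe_smul, Algebra.smul_def, Algebra.smul_def,
          Pl.r_mul (P.le c) (mem_ball.1 x.2), lnr_plV] }
  have h1 : Function.Surjective φ := fun y => by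
    obtain ⟨x, rfl⟩ := surj_plV (rzP P) y
    exact ⟨⟨x, mem_ball.2 x.2⟩, (plV (rzP P)).r_coe x⟩
  have h2 : (ball P (-1)).submoduleOf (ball P 0) = LinearMap.ker φ := by
    ext x
    change (x : F) ∈ ball P (-1) ↔ (plV (rzP P)).r x = 0
    rw [Pl.r_eq_zero (mem_ball.1 x.2), mem_ball, ← RR2_948.lt_one_iff, ← map_one P.v,
      ← rzP_lt_iff, map_one]
    rfl
  rw [degP, degE, RR1_948.ri, h2, (φ.quotKerEquivOfSurjective h1).length_eq,
    Module.length_eq_rank, Module.finrank, Cardinal.toNat_toENat]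

variable [CharZero K] [Algebra.EssFiniteType K F]

theorem crv_of_dim (hd : dim K F = 1) : Et.Crv K F := by
  have h1 := trdeg_eq_dim (k := K) (F := F)
  rw [hd, Nat.cast_one] at h1
  have h2 : Algebra.Transcendental K F := trdeg_ne_zero_iff.1 (h1 ▸ one_ne_zero)
  obtain ⟨z, hz⟩ := h2.transcendental
  refine ⟨z, hz, dim_eq_zero_iff.1 ?_⟩
  have h3 := dim_tower K K⟮z⟯ F
  have h4 : dim K K⟮z⟯ ≠ 0 := fun h0 => by
    have := dim_eq_zero_iff.1 h0
    exact hz (isAlgebraic_iff.1 (Algebra.IsAlgebraic.isAlgebraic (AdjoinSimple.gen K z)))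
  omega

theorem rz_cases (hd : dim K F = 1) (V : RZ K F) : V = RZ.top K F ∨ ∃ P, V = rzP P :=
  ((crv_of_dim hd).top_or V.2).imp Subtype.ext fun ⟨P, h⟩ => ⟨P, Subtype.ext h⟩

theorem le_iff_ordP (hd : dim K F = 1) : a ≤ b ↔ ∀ P, ordP P a ≤ ordP P b := by
  refine ⟨fun h P => ordP_mono h, fun h V => ?_⟩
  rcases rz_cases hd V with rfl | ⟨P, rfl⟩
  · rw [val_top, val_top]
  · exact ordP_le_iff.1 (h P)

theorem ext_ordP (hd : dim K F = 1) (h : ∀ P, ordP P a = ordP P b) : a = b :=
  le_antisymm ((le_iff_ordP hd).2 fun P => (h P).le) ((le_iff_ordP hd).2 fun P => (h P).ge)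

theorem mem_Sec_iff_ordP (hd : dim K F = 1) : f ∈ a.Sec ↔ ∀ P : Pt K F, P.v f ≤ exp (ordP P a) := by
  refine ⟨fun h P => le_ordP_iff.2 (h _), fun h V => ?_⟩
  rcases rz_cases hd V with rfl | ⟨P, rfl⟩
  · rw [val_top]
    exact RZ.le_one_iff.2 trivial
  · exact le_ordP_iff.1 (h P)

theorem finite_ordP (hd : dim K F = 1) (a : BD K F) : {P : Pt K F | ordP P a ≠ 0}.Finite := by
  have key : ∀ a : BD K F, Free a → {P : Pt K F | ordP P a ≠ 0}.Finite := fun a ha => by
    obtain ⟨r, s, h0, -, h2⟩ := ha.exists_fam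
    refine (Set.finite_iUnion fun i => (crv_of_dim hd).finite_ne (h0 i)).subset fun P hP => ?_
    obtain ⟨i, hi⟩ := h2 (rzP P)
    refine Set.mem_iUnion.2 ⟨i, fun h => hP ?_⟩
    rw [eq_ordP_iff.2 hi, ← exp_zero, exp_inj] at h
    exact h
  obtain ⟨b, c, hb, hc, rfl⟩ := exists_sub a
  refine ((key b hb).union (key c hc)).subset fun P hP => ?_
  by_contra h
  simp only [Set.mem_union, Set.mem_ofPred_eq, not_or, not_not] at h
  exact hP (by rw [map_sub, h.1, h.2, sub_zero])

/-- the Weil divisor of a b-divisor on a curve -/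
def dvC (hd : dim K F = 1) : BD K F →+ (Pt K F →₀ ℤ) where
  toFun a := Finsupp.ofSupportFinite (fun P => ordP P a) (finite_ordP hd a)
  map_zero' := Finsupp.ext fun P => map_zero (ordP P)
  map_add' a b := Finsupp.ext fun P => map_add (ordP P) a b

variable (hd : dim K F = 1)

@[simp] theorem dvC_apply (a : BD K F) (P : Pt K F) : dvC hd a P = ordP P a := rfl


theorem dvC_injective : Function.Injective (dvC hd) := fun _ _ h =>
  ext_ordP hd fun P => DFunLike.congr_fun h P

theorem Sec_eq_LD (a : BD K F) : a.Sec = LD (dvC hd a) :=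
  Submodule.ext fun _ => (mem_Sec_iff_ordP hd).trans (mem_LD (D := dvC hd a)).symm

theorem finrank_eq_ell (a : BD K F) : finrank K a.Sec = ell (dvC hd a) := by
  rw [Sec_eq_LD hd, ell]

theorem dvC_surjective : Function.Surjective (dvC hd) := by
  classical
  obtain ⟨_, _, _, _⟩ := (crv_of_dim hd).exists_alg
  have key : ∀ P : Pt K F, ∃ a, dvC hd a = Finsupp.single P (-1) := fun P => by
    obtain ⟨f, hf, h1⟩ := exists_v_eq P (-1)
    obtain ⟨g, hg, h2⟩ := exists_prescribed (insert P (finite_ne_one (k := K) hf).toFinset)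
      fun Q => if Q = P then -1 else 0
    refine ⟨(pr K f ⊔ pr K g) ⊓ 0, Finsupp.ext fun Q => ?_⟩
    rw [dvC_apply, ordP_inf, ordP_sup, map_zero]
    have e1 := exp_ordP_pr (P := Q) hf
    have e2 := exp_ordP_pr (P := Q) hg
    by_cases hQ : Q = P
    · subst hQ
      rw [h1, exp_inj] at e1
      rw [h2 Q (Finset.mem_insert_self _ _), if_pos rfl, exp_inj] at e2
      simp [e1, e2]
    · rw [Finsupp.single_eq_of_ne hQ]
      by_cases h3 : Q.v f = 1
      · rw [h3, ← exp_zero, exp_inj] at e1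
        rw [e1]
        exact min_eq_right (le_max_left _ _)
      · rw [h2 Q (Finset.mem_insert_of_mem (by simpa using h3)), if_neg hQ, exp_inj] at e2
        rw [e2]
        exact min_eq_right (le_max_right _ _)
  intro D
  induction D using Finsupp.induction_linear with
  | zero => exact ⟨0, map_zero _⟩
  | add _ _ h1 h2 =>
    obtain ⟨a, rfl⟩ := h1
    obtain ⟨b, rfl⟩ := h2
    exact ⟨a + b, map_add _ _ _⟩
  | single P n =>
    obtain ⟨a, ha⟩ := key P
    exact ⟨(-n) • a, by rw [map_zsmul, ha, Finsupp.smul_single]; simp⟩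

/-- Weil divisors and b-divisors on a curve are the same -/
def dvE : BD K F ≃+ (Pt K F →₀ ℤ) :=
  AddEquiv.ofBijective (dvC hd) ⟨dvC_injective hd, dvC_surjective hd⟩

/-- the b-divisor of a Weil divisor -/
def dvB : (Pt K F →₀ ℤ) →+ BD K F := (dvE hd).symm.toAddMonoidHom

@[simp] theorem dvC_dvB (D : Pt K F →₀ ℤ) : dvC hd (dvB hd D) = D := (dvE hd).apply_symm_apply D

@[simp] theorem dvB_dvC (a : BD K F) : dvB hd (dvC hd a) = a := (dvE hd).symm_apply_apply a

@[simp] theorem ordP_dvB (D : Pt K F →₀ ℤ) (P : Pt K F) : ordP P (dvB hd D) = D P :=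
  DFunLike.congr_fun (dvC_dvB hd D) P


theorem degD_nonneg_of_eff (h : Eff a) : 0 ≤ degD (dvC hd a) := by
  obtain ⟨_, _, _, _⟩ := (crv_of_dim hd).exists_alg
  obtain ⟨g, hg, h0⟩ := h
  by_contra hc
  exact h0 (eq_zero_of_degD_neg (not_le.1 hc) (Sec_eq_LD hd a ▸ hg))

include hd in
theorem degP_pos' (P : Pt K F) : 0 < degP P := by
  obtain ⟨_, _, _, _⟩ := (crv_of_dim hd).exists_alg
  exact RR11_948.degP_pos P

include hd in
theorem exists_pt (S : Finset (Pt K F)) : ∃ P, P ∉ S := by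
  obtain ⟨_, _, _, _⟩ := (crv_of_dim hd).exists_alg
  exact exists_notMem S

/-- Riemann's theorem -/
theorem exists_ell : ∃ c e : ℤ, ∀ a : BD K F, e < degD (dvC hd a) →
    (finrank K a.Sec : ℤ) = degD (dvC hd a) + c := by
  obtain ⟨_, _, _, _⟩ := (crv_of_dim hd).exists_alg
  exact ⟨_, _, fun a h => finrank_eq_ell hd a ▸ ell_sub_of_lt h⟩

theorem bnum_of_pos (ha : Nef a) (h : 0 < degD (dvC hd a)) : bnum [a] = degD (dvC hd a) := by
  obtain ⟨c, e, hc⟩ := exists_ell hd
  have h1 := ha.tendsto 0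
  rw [hd] at h1
  have h2 : Tendsto (fun m : ℕ => (degD (dvC hd a) : ℝ) + (c : ℝ) / (m : ℝ)) atTop
      (𝓝 ((degD (dvC hd a) : ℝ) + 0)) :=
    tendsto_const_nhds.add (tendsto_const_div_atTop_nhds_zero_nat _)
  rw [add_zero] at h2
  have h3 := tendsto_nhds_unique h1 (h2.congr' ?_)
  · exact_mod_cast h3
  filter_upwards [eventually_gt_atTop e.toNat] with m hm
  have h4 : e < degD (dvC hd (m • a)) := by
    rw [map_nsmul, Et.degD_nsmul]
    have : (e.toNat : ℤ) < m := by exact_mod_cast hm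
    nlinarith [Int.self_le_toNat e]
  have h5 : (finrank K (m • a).Sec : ℝ) = m * degD (dvC hd a) + c := by
    have h6 := hc _ h4
    rw [map_nsmul, Et.degD_nsmul] at h6
    exact_mod_cast h6
  have h7 : (m : ℝ) ≠ 0 := by
    have : 0 < m := by omega
    positivity
  rw [nh, zero_add, h5, hd]
  field_simp
  simp

/-- **the degree** -/
theorem bnum_eq_degD (a : BD K F) : bnum [a] = degD (dvC hd a) := by
  obtain ⟨P, -⟩ := exists_pt hd ∅
  obtain ⟨c, hc, hc'⟩ := exists_free_add (dvB hd (Finsupp.single P 1))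
  have h1 : 0 < degD (dvC hd (dvB hd (Finsupp.single P 1) + c)) := by
    rw [map_add, degD_add, dvC_dvB, degD_single]
    have := degP_pos' hd P
    have := degD_nonneg_of_eff hd hc.eff
    omega
  have key : ∀ b : BD K F, Free b → bnum [b] = degD (dvC hd b) := fun b hb => by
    have h2 := bnum_of_pos hd (hb.add hc').nef (by
      rw [map_add, degD_add]
      have := degD_nonneg_of_eff hd hb.eff
      omega)
    rw [bnum_add, bnum_of_pos hd hc'.nef h1, map_add (dvC hd) b, degD_add] at h2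
    omega
  obtain ⟨b, c, hb, hc, rfl⟩ := exists_sub a
  rw [bnum_sub, map_sub, degD_sub, key b hb, key c hc]

theorem bnum_dvB (D : Pt K F →₀ ℤ) : bnum [dvB hd D] = degD D := by
  rw [bnum_eq_degD hd, dvC_dvB]

theorem bnum_dvB_single (P : Pt K F) (n : ℤ) :
    bnum [dvB hd (Finsupp.single P n)] = n * degP P := by
  rw [bnum_dvB, degD_single]

include hd

theorem bnum_eq_sum {T : Finset (Pt K F)} (hT : ∀ P, ordP P a ≠ 0 → P ∈ T) :
    bnum [a] = ∑ P ∈ T, ordP P a * degP P := by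
  rw [bnum_eq_degD hd, degD]
  exact Finsupp.sum_of_support_subset _ (fun P hP => hT P (Finsupp.mem_support_iff.1 hP)) _
    (by simp)

theorem sum_le_deg (ha : 0 ≤ a) (T : Finset (Pt K F)) :
    ∑ P ∈ T, ordP P a * degP P ≤ bnum [a] := by
  classical
  rw [bnum_eq_sum hd (T := T ∪ (dvC hd a).support) fun P hP =>
    Finset.mem_union_right _ (Finsupp.mem_support_iff.2 hP)]
  exact Finset.sum_le_sum_of_subset_of_nonneg Finset.subset_union_left fun P _ _ =>
    mul_nonneg (ord_nonneg ha) (Nat.cast_nonneg _)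

theorem ordP_le_deg (ha : 0 ≤ a) (P : Pt K F) : ordP P a * degP P ≤ bnum [a] := by
  simpa using sum_le_deg hd ha {P}

theorem eq_zero_of_deg (ha : 0 ≤ a) (h : bnum [a] = 0) : a = 0 := ext_ordP hd fun P => by
  have h1 := ordP_le_deg hd ha P
  have h2 : 0 ≤ ordP P a := ord_nonneg ha
  have h3 : (0 : ℤ) < degP P := by exact_mod_cast degP_pos' hd P
  rw [map_zero]
  nlinarith


theorem lin_zero_of_eff (ha : Eff a) (h : bnum [a] = 0) : Lin a 0 := by
  obtain ⟨b, hb, e⟩ := eff_iff_lin.1 ha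
  rwa [eq_zero_of_deg hd hb (e.bnum_eq [] ▸ h)] at e

theorem exists_riemann : ∃ c e : ℤ, ∀ a : BD K F, e < bnum [a] →
    (finrank K a.Sec : ℤ) = bnum [a] + c := by
  simpa only [bnum_eq_degD hd] using exists_ell hd

/-- a section which generates at a given place -/
theorem exists_gen_at (h : finrank K (a - dvB hd (Finsupp.single P 1)).Sec < finrank K a.Sec) :
    ∃ g ∈ a.Sec, P.v g = exp (ordP P a) := by
  by_contra hc
  push Not at hc
  refine absurd (Submodule.finrank_mono fun g hg => (mem_Sec_iff_ordP hd).2 fun Q => ?_) h.not_ge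
  have h1 := (mem_Sec_iff_ordP hd).1 hg Q
  rw [map_sub, ordP_dvB]
  by_cases hQ : Q = P
  · subst hQ
    rw [Finsupp.single_eq_same, ← RR2_948.lt_exp_iff]
    exact lt_of_le_of_ne h1 (hc g hg)
  · rwa [Finsupp.single_eq_of_ne hQ, sub_zero]

theorem free_of_gen_at (ha : Eff a) (h : ∀ P : Pt K F, ∃ g ∈ a.Sec, P.v g = exp (ordP P a)) :
    Free a := by
  refine free_iff_gen.2 fun V => ?_
  rcases rz_cases hd V with rfl | ⟨P, rfl⟩
  · obtain ⟨g, hg, h0⟩ := ha
    exact ⟨g, hg, by rw [val_top, RZ.v_top h0]⟩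
  · exact (h P).imp fun g hg => ⟨hg.1, eq_ordP_iff.1 hg.2⟩

theorem exists_eff_of_deg : ∃ e : ℤ, ∀ a : BD K F, e < bnum [a] → Eff a := by
  obtain ⟨c, e, hc⟩ := exists_riemann hd
  refine ⟨max e (-c), fun a h => eff_iff_finrank.2 ?_⟩
  have h1 := hc a ((le_max_left _ _).trans_lt h)
  have h2 := (le_max_right _ _).trans_lt h
  omega

/-- classes of positive degree are ample -/
theorem exists_free_of_deg (h : 0 < bnum [a]) : ∃ m : ℕ, 0 < m ∧ Free (m • a) := by
  classical
  obtain ⟨c, e, hc⟩ := exists_riemann hd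
  obtain ⟨e', he'⟩ := exists_eff_of_deg hd
  obtain ⟨s, hs, h0⟩ := he' ((e'.toNat + 1) • a) (by
    rw [bnum_nsmul]
    push_cast
    nlinarith [Int.self_le_toNat e', Int.natCast_nonneg e'.toNat])
  let T := (dvC hd ((e'.toNat + 1) • a - pr K s)).support
  obtain ⟨j, hj⟩ : ∃ j : ℕ, e + ∑ P ∈ T, (degP P : ℤ) < j := ⟨(e + ∑ P ∈ T, (degP P : ℤ)).toNat + 1,
    by push_cast; exact Int.lt_add_one_iff.2 (Int.self_le_toNat _)⟩
  refine ⟨(j + 1) * (e'.toNat + 1), by positivity, free_of_gen_at hd ?_ fun P => ?_⟩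
  · rw [mul_nsmul']
    exact Eff.nsmul ⟨s, hs, h0⟩ _
  by_cases hP : P ∈ T
  · have h1 : (j : ℤ) < bnum [((j + 1) * (e'.toNat + 1)) • a] := by
      rw [bnum_nsmul]
      push_cast
      nlinarith [Int.natCast_nonneg e'.toNat, Int.natCast_nonneg j,
        mul_nonneg (Int.natCast_nonneg e'.toNat) (Int.natCast_nonneg j)]
    have h2 : (degP P : ℤ) ≤ ∑ P ∈ T, (degP P : ℤ) :=
      Finset.single_le_sum (f := fun P => (degP P : ℤ)) (fun _ _ => Nat.cast_nonneg _) hP
    have h3 := degP_pos' hd P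
    have h4 := hc (((j + 1) * (e'.toNat + 1)) • a) (by omega)
    have h5 := hc (((j + 1) * (e'.toNat + 1)) • a - dvB hd (Finsupp.single P 1))
      (by rw [bnum_sub, bnum_dvB_single]; omega)
    rw [bnum_sub, bnum_dvB_single] at h5
    exact exists_gen_at hd (by omega)
  · refine ⟨s ^ (j + 1), mul_nsmul' a _ _ ▸ pow_mem_Sec hs _, ?_⟩
    have h1 : ordP P ((e'.toNat + 1) • a - pr K s) = 0 := Finsupp.notMem_support_iff.1 hP
    rw [map_sub, sub_eq_zero] at h1
    rw [mul_nsmul', map_nsmul, h1, map_pow, ← exp_ordP_pr h0, exp_nsmul]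

theorem nef_iff_deg : Nef a ↔ 0 ≤ bnum [a] := by
  refine ⟨fun h => bnum_nonneg (by simpa), fun h => ?_⟩
  obtain ⟨A, hA, -⟩ := exists_va K F
  have h1 : 0 < bnum [A] := bnum_pos hd.symm (by simpa using ⟨hA.nef, hA.big⟩)
  refine nef_of_semi (h := A) fun m => exists_free_of_deg hd ?_
  rw [bnum_add, bnum_nsmul]
  positivity

theorem big_iff_deg : Big a ↔ 0 < bnum [a] := by
  refine ⟨fun h => ?_, fun h => ((nef_iff_deg hd).2 h.le).big_iff.2 (by rwa [hd])⟩
  have h1 := ((nef_iff_deg hd).2 (h.psef.bnum_nonneg (l := []) (by simp))).big_iff.1 h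
  rwa [hd] at h1


/-- the degree of a function -/
theorem bnum_pole {t : F} (ht : Transcendental K t) :
    bnum [mxf K ![1, t]] = finrank K⟮t⟯ F := by
  obtain ⟨_, _, _, _⟩ := (crv_of_dim hd).exists_alg
  have h0 : t ≠ 0 := fun h => ht (h ▸ isAlgebraic_zero)
  have h1 : dvC hd (mxf K ![1, t]) = poles t := Finsupp.ext fun P => by
    have e : mxf K ![1, t] = pr K t ⊔ 0 := by
      refine (eq_mxf (Fin.forall_fin_two.2 ⟨nonneg_iff.1 le_sup_right,
        (pr_le_iff h0).1 le_sup_left⟩) fun V => ?_).symm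
      rw [val_sup, val_pr h0, val_zero]
      rcases le_total (V.v t) 1 with h | h
      · exact ⟨0, by simp [h]⟩
      · exact ⟨1, by simp [h]⟩
    have e2 := exp_ordP_pr (P := P) h0
    rw [v_eq h0, exp_inj] at e2
    rw [dvC_apply, e, ordP_sup, map_zero, poles_apply, e2]
  rw [bnum_eq_degD hd, h1, degD_poles_eq t ht (ratAlg_isSeparable t ht)]
  letI := ratAlg t ht
  congr 1
  refine Algebra.finrank_eq_of_equiv_equiv (RatFunc.algEquivOfTranscendental t ht).toRingEquiv
    (RingEquiv.refl F) ?_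
  refine RingHom.ext fun u => (RatFunc.algEquivOfTranscendental_apply t ht u).trans ?_
  exact (RatFunc.liftAlgHom_apply _ (nonZeroDivisors_le_comap_nonZeroDivisors_of_injective _
    (transcendental_iff_injective.mp ht)) u).symm

end Crest.Agent.X262.Loc
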