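import Crest.Agent.X262.Loc95.Kv
import Crest.Agent.X262.Gfm18.Base
import Crest.Agent.X262.Sark.Defs
import Crest.Agent.X277.N8.Dvr
import Crest.Agent.X277.Exc.Der
import Crest.Agent.X277.Res.LogD

/-!
# Row 262 (helper95): the canonical class on the generic fibre of a fibration in curves

* `IsRel b δ`, `exists_rel` : the derivation `f ↦ jac b (f, u)` of `F / K`;
* `IsRel.jac_le`, `IsRel.exists_jac` : `kC δ` is generated by the Jacobians;
* `up_kP_le`, `IsRel.val_kP`, `up_kP_eq` : the canonical class of a smooth model;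
* `deg_up_kP`, `deg_up_kP_ge` : its degree on the generic fibre.
-/

set_option autoImplicit false
set_option linter.unusedSectionVars false
set_option linter.style.haveILetI false

open scoped KaehlerDifferential

noncomputable section

namespace Crest.Agent.X262.Loc

open Crest.Agent.X277 Crest.Agent.X277.BD Crest.Agent.X277.Pst Crest.Agent.X277.Lef WithZero
open Crest.Agent.X277.Jet Crest.Agent.X277.AN.G1
open Crest.Agent.X277.BD.Br (On oP kP At)
open Crest.Agent.X262.Mod (IsMod Car LeOn EqOn)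
open Crest.Agent.R276.DivVal_858 (ResInd IsUnif)
open Module

section rel

variable {k K F : Type} [Field k] [Field K] [Field F] [Algebra k K] [Algebra K F] [Algebra k F]
  [IsScalarTower k K F] {m : ℕ}

/-- `δ f` is the Jacobian of `f` and a transcendence basis of `K` -/
def IsRel (b : Basis (Fin (m + 1)) F Ω[F⁄k]) (δ : Derivation K F F) : Prop :=
  ∃ u : Fin m → K, AlgebraicIndependent k u ∧
    ∀ f, δ f = jac b (Fin.cons f fun i => algebraMap K F (u i))

theorem isUnif_rzP {P : Pt K F} {t : F} (ht : P.v t = exp (-1)) : IsUnif (rzP P).1 t := by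
  refine ⟨?_, ?_, fun y hy => rzP_le_iff.2 ?_⟩
  · have h : P.v t < P.v 1 := by rw [ht, map_one, ← exp_zero, exp_lt_exp]; omega
    simpa using rzP_lt_iff.2 h
  · rintro rfl
    exact exp_ne_zero (ht.symm.trans (map_zero _))
  · have h : P.v y < P.v 1 := rzP_lt_iff.1 (by rwa [map_one])
    rcases eq_or_ne (P.v y) 0 with h0 | h0
    · exact h0 ▸ zero_le
    · rw [map_one, ← exp_log h0, ← exp_zero, exp_lt_exp] at h
      rw [ht, ← exp_log h0, exp_le_exp]
      omega

theorem resInd_base {u : Fin m → K} (hu : AlgebraicIndependent k u) (W : RZ K F) :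
    ResInd k W.1 fun i => algebraMap K F (u i) := by
  refine ⟨fun i => W.2 _, fun p hp => ?_⟩
  exact (congrArg W.v (MvPolynomial.aeval_algebraMap_apply F u p)).trans
    (W.v_alg fun h0 => hp (hu (h0.trans (map_zero _).symm)))

variable [CharZero k] [CharZero K] [Algebra.EssFiniteType k F] [Algebra.EssFiniteType K F]
  {b : Basis (Fin (m + 1)) F Ω[F⁄k]} {δ : Derivation K F F}

theorem exists_fr_pt (b : Basis (Fin (m + 1)) F Ω[F⁄k]) {u : Fin m → K}
    (hu : AlgebraicIndependent k u) {P : Pt K F} {t : F} (ht : P.v t = exp (-1)) :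
    ∃ Z : Fr k F (Fin (m + 1)), Z.y = Fin.cons t (fun i => algebraMap K F (u i)) ∧
      Z.At (Cns.kSub ((rzP P).dn k).2) :=
  at_of_unif (N8.trdeg_of_basis b) _ (resInd_base hu _) (isUnif_rzP ht)

variable (hd : dim K F = 1)
include hd

theorem IsRel.ne (h : IsRel b δ) : δ ≠ 0 := fun h0 => by
  obtain ⟨u, hu, h⟩ := h
  obtain ⟨P, -⟩ := exists_pt hd ∅
  obtain ⟨t, ht⟩ := unif_pt P
  obtain ⟨Z, hZ, -⟩ := exists_fr_pt b hu ht
  have h1 := N8.jac_frame_ne b Z
  rw [hZ] at h1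
  exact h1 ((h t).symm.trans (h0 ▸ rfl))

theorem trdeg_base (b : Basis (Fin (m + 1)) F Ω[F⁄k]) : Algebra.trdeg k K = m := by
  obtain ⟨c, h1, h2⟩ := Slope.exists_codim k K F
  rw [show Gj.dm K F = 1 from hd, Gj.dm, finrank_eq_card_basis b, Fintype.card_fin] at h2
  rw [h1, Nat.succ_injective h2]

theorem exists_rel (b : Basis (Fin (m + 1)) F Ω[F⁄k]) : ∃ δ : Derivation K F F, IsRel b δ := by
  obtain ⟨ι, x, hx⟩ := exists_isTranscendenceBasis' k K
  have h1 := hx.cardinalMk_eq_trdeg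
  rw [trdeg_base hd b, ← Cardinal.mk_fin, Cardinal.eq] at h1
  obtain ⟨e⟩ := h1
  let w : Fin (m + 1) → Ω[F⁄k] :=
    Fin.cons 0 fun i => KaehlerDifferential.D k F (algebraMap K F (x (e.symm i)))
  let d : Derivation k F F :=
    (b.det.toMultilinearMap.toLinearMap w 0).compDer (KaehlerDifferential.D k F)
  have h2 : ∀ f, d f = jac b (Fin.cons f fun i => algebraMap K F (x (e.symm i))) := fun f => by
    change b.det (Function.update w 0 _) = b.det _
    rw [Fin.update_cons_zero]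
    congr 1
    exact funext (Fin.cases rfl fun _ => rfl)
  have h3 : ∀ i, d (algebraMap K F (x i)) = 0 := fun i => by
    rw [h2]
    refine b.det.map_eq_zero_of_eq _ (i := 0) (j := (e i).succ) ?_ (Fin.succ_ne_zero _).symm
    simp
  exact ⟨toK d fun c => Exc.der_alg (d.compAlgebraMap K) _
    (Exc.der_adjoin _ (by rintro _ ⟨j, rfl⟩; exact h3 j)) (hx.isAlgebraic.isAlgebraic c),
    _, hx.1.comp _ e.symm.injective, h2⟩

theorem IsRel.jac_le (h : IsRel b δ) {W : RZ K F} {z : Fin (m + 1) → F} (hz : ∀ i, z i ∈ W.1) :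
    W.v (jac b z) ≤ (kC δ).val W := by
  rcases rz_cases hd W with rfl | ⟨P, rfl⟩
  · rw [val_top]
    exact RZ.le_one_iff.2 trivial
  obtain ⟨t, ht⟩ := unif_pt P
  rw [← eq_ordP_iff.1 (v_der_unif hd (h.ne hd) ht)]
  obtain ⟨u, hu, h⟩ := h
  obtain ⟨Z, hZ, h1⟩ := exists_fr_pt b hu ht
  rw [h, ← hZ, show jac b z = jac b Z.y * Z.jc z from N8.jac_eq_mul b Z z, map_mul]
  exact mul_le_of_le_one_right' (RZ.le_one_iff.2 (h1.jc_mem hz))

theorem IsRel.exists_jac (h : IsRel b δ) (W : RZ K F) :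
    ∃ z : Fin (m + 1) → F, (∀ i, z i ∈ W.1) ∧ W.v (jac b z) = (kC δ).val W := by
  obtain ⟨f, h1, h2⟩ := exists_der_eq hd (h.ne hd) W
  obtain ⟨u, -, h⟩ := h
  exact ⟨_, Fin.cases h1 fun i => W.2 _, h f ▸ h2⟩


/-- comparison with a multiple of the canonical class, upper bound -/
theorem IsRel.le_up (h : IsRel b δ) {a : BD k F} {s : ℕ}
    (ha : ∀ W : RZ K F, W.1 ≠ ⊤ → ∀ z : Fin (m + 1) → F, (∀ i, z i ∈ W.1) →
      W.v (jac b z) ^ s ≤ a.val (W.dn k)) : s • kC δ ≤ up K a := fun W => by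
  rcases rz_cases hd W with rfl | ⟨P, rfl⟩
  · rw [val_top, val_top]
  obtain ⟨z, h1, h2⟩ := h.exists_jac hd (rzP P)
  rw [val_up, val_nsmul, ← h2]
  exact ha _ (rzP_ne_top P) z h1

end rel

section smooth

variable {F : Type} [Field F] [Algebra ℂ F] {P : PModel ℂ F} {a : BD ℂ F} {V : RZ ℂ F}

theorem bir_oP (P : PModel ℂ F) : Bir (oP P) := fun f => by
  obtain ⟨x, hx, c, hc, h0, rfl⟩ := P.frac' 0 f
  obtain ⟨M, h1⟩ := Br.exists_tw_mem (P := P) (i := 0) (a := 0) (f := x)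
    fun V hV => RZ.le_one_iff.2 (hV x hx)
  obtain ⟨N, h2⟩ := Br.exists_tw_mem (P := P) (i := 0) (a := 0) (f := c)
    fun V hV => RZ.le_one_iff.2 (hV c hc)
  refine ⟨M + N, c * P.y 0 ^ (M + N), by simpa using h2 _ le_add_self,
    mul_ne_zero h0 (pow_ne_zero _ (P.y_ne 0)), ?_⟩
  rw [← mul_assoc, div_mul_cancel₀ _ h0]
  simpa using h1 _ le_self_add

theorem isMod_oP (P : PModel ℂ F) : IsMod (oP P) := ⟨Br.free_oP, bir_oP P⟩

theorem car_of_on (ha : a ∈ On P) : Car (oP P) a := by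
  obtain ⟨m, hm⟩ := Br.serre ha
  obtain ⟨l, hl⟩ := Br.serre (neg_mem ha)
  exact Mod.car_of Br.free_oP (add_comm a _ ▸ hm m le_rfl)
    (by rw [sub_eq_neg_add]; exact hl l le_rfl)

variable [Algebra.EssFiniteType ℂ F]

/-- at a prime divisor of `P` the canonical divisor is generated by the Jacobians -/
theorem jac_le_kP {n : ℕ} (b : Basis (Fin n) F Ω[F⁄ℂ]) (hV : Prm (oP P) V) {z : Fin n → F}
    (hz : ∀ i, z i ∈ V.1) : V.v (jac b z) ≤ (kP P b).val V := by
  obtain ⟨x, hx⟩ := Br.exists_ov' P V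
  obtain ⟨y, hy⟩ := exists_crd b x
  obtain ⟨i, hi⟩ := exists_pat x
  have h0 := hy.jac_ne (lp_fin x) b
  have h1 := Res.Log.le_pdS b hy (W := Cns.kSub V.2) hx
  rw [← Br.at_kP b hy V hx, RZ.le_iff h0]
  refine Res.Log.jac_div_mem_of_pdS h0 (W := Cns.kSub V.2) fun l => ?_
  obtain ⟨j, g, h3, h4, h5⟩ := Neg.le_loc Br.free_oP (bir_oP P) hV (hz l)
  have h6 := (Br.at_y hi).nsmul j
  refine Res.Log.pdS_of_mul h0 (h1 (h6.div_mem h3))
    ((RZ.eq_iff h6.ne).1 (h4.trans (h6 V hx).symm)) (h1 ?_)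
  rw [div_mul_eq_mul_div, mul_comm]
  exact h6.div_mem h5

variable {K : Type} [Field K] [Algebra ℂ K] [Algebra K F] [IsScalarTower ℂ K F] [CharZero K]
  [Algebra.EssFiniteType K F] {m : ℕ} {b : Basis (Fin (m + 1)) F Ω[F⁄ℂ]} {δ : Derivation K F F}
  (hd : dim K F = 1) (h : IsRel b δ)
include hd h

theorem kP_val_le (P : PModel ℂ F) (W : RZ K F) : (kP P b).val (W.dn ℂ) ≤ (kC δ).val W := by
  obtain ⟨x, hx⟩ := Br.exists_ov' P (W.dn ℂ)
  obtain ⟨y, hy⟩ := exists_crd b x
  rw [← Br.at_kP b hy _ hx]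
  exact h.jac_le hd fun i => hx _ (hy.mem i)


theorem IsRel.val_kP {W : RZ K F} (hW : Prm (oP P) (W.dn ℂ)) :
    (kP P b).val (W.dn ℂ) = (kC δ).val W := by
  refine (kP_val_le hd h P W).antisymm ?_
  obtain ⟨z, h1, h2⟩ := h.exists_jac hd W
  exact h2 ▸ jac_le_kP b hW h1


end smooth

section fib

variable {k F : Type} [Field k] [Field F] [Algebra k F] [CharZero k] [Algebra.EssFiniteType k F]
  {H A : BD k F}

/-- horizontal divisors of a fibration in curves are prime divisors of every model of it -/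
theorem prm_dn (hH : Free H) (hA : Free A) (h : Car H A) (hd : dim (cf A) F = 1)
    {W : RZ (cf A) F} (hW : W.1 ≠ ⊤) : Prm H (W.dn k) :=
  (Gfm.prm_up_iff hH hA h W).1 ((prm_iff_ne_top hd _).2 hW)

theorem up_le_of_leOn (hH : Free H) (hA : Free A) (h : Car H A) (hd : dim (cf A) F = 1)
    {a a' : BD k F} (h1 : LeOn H a a') : up (cf A) a ≤ up (cf A) a' := fun W => by
  rcases rz_cases hd W with rfl | ⟨P, rfl⟩
  · rw [val_top, val_top]
  · rw [val_up, val_up]
    exact h1 _ (prm_dn hH hA h hd (rzP_ne_top P))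

theorem up_eq_of_eqOn (hH : Free H) (hA : Free A) (h : Car H A) (hd : dim (cf A) F = 1)
    {a a' : BD k F} (h1 : EqOn H a a') : up (cf A) a = up (cf A) a' :=
  (up_le_of_leOn hH hA h hd h1.le).antisymm (up_le_of_leOn hH hA h hd h1.ge)

theorem cst_cf (A : BD k F) : cst (cf A) F = 1 := cst_of_closed (cf_closure A)

end fib

section fibC

variable {F : Type} [Field F] [Algebra ℂ F] [Algebra.EssFiniteType ℂ F] {P : PModel ℂ F}
  {A : BD ℂ F} {m : ℕ} {b : Basis (Fin (m + 1)) F Ω[F⁄ℂ]} (hA : Free A) (hP : A ∈ On P)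
  (hd : dim (cf A) F = 1)
include hA hP hd

/-- **adjunction on the generic fibre** -/
theorem up_kP_eq {δ : Derivation (cf A) F F} (h : IsRel b δ) : up (cf A) (kP P b) = kC δ := by
  refine BD.ext' fun W => ?_
  rcases rz_cases hd W with rfl | ⟨Q, rfl⟩
  · rw [val_top, val_top]
  · rw [val_up, h.val_kP hd (prm_dn Br.free_oP hA (car_of_on hP) hd (rzP_ne_top Q))]



omit hA hP hd in
theorem up_nsmul {K : Type} [Field K] [Algebra ℂ K] [Algebra K F] [IsScalarTower ℂ K F] (s : ℕ)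
    (a : BD ℂ F) : up K (s • a) = s • up K a := map_nsmul _ _ _


theorem up_eq_of_kEq {δ : Derivation (cf A) F F} (h : IsRel b δ) {s : ℕ} {H a : BD ℂ F}
    (hH : Free H) (hc : Car H A) (ha : Sark.KEq b s H a) : up (cf A) a = s • kC δ := by
  rw [← up_kP_eq hA hP hd h, ← up_nsmul]
  refine BD.ext' fun W => ?_
  rcases rz_cases hd W with rfl | ⟨Q, rfl⟩
  · rw [val_top, val_top]
  · rw [val_up, val_up, ha P _ (prm_dn Br.free_oP hA (car_of_on hP) hd (rzP_ne_top Q))
      (prm_dn hH hA hc hd (rzP_ne_top Q))]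

end fibC

end Crest.Agent.X262.Loc
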