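import Crest.Agent.X262.Loc95.Crv

/-!
# Row 262 (helper95): the canonical class of a curve over a field of characteristic zero

* `kC δ`     : the canonical divisor of a derivation `δ ≠ 0` (generator `δ t`, `t` uniformiser);
* `cst K F`, `gn K F` : `h⁰(0)` (degree of the field of constants) and `h⁰(K)`;
* `rr`, `deg_kC`, `deg_kC_ge` : Riemann-Roch, `deg K = 2 gn - 2 cst`;
* `pb_kC_le`, `ordP_kC_pb`, `gn_eq_zero_of_pb` : Hurwitz;
* `gn_rat`, `deg_kC_rat`, `exists_rat` : rational curves.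
-/

set_option autoImplicit false
set_option linter.unusedSectionVars false
set_option linter.style.haveILetI false

noncomputable section

namespace Crest.Agent.X262.Loc

open Crest.Agent.X277 Crest.Agent.X277.BD WithZero IntermediateField
open Crest.Agent.R013 RR8_948 RR9_948 RR11_948 RR12_948 RR14_948 RR15_948 RR17_948 RR20_948
open Module (finrank)

universe u

variable {K F : Type u} [Field K] [Field F] [Algebra K F]

/-- `a` is the canonical divisor of the derivation `δ` -/
def IsKC (δ : Derivation K F F) (a : BD K F) : Prop :=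
  ∀ (P : Pt K F) (t : F), P.v t = exp (-1) → P.v (δ t) = exp (ordP P a)

open Classical in
/-- the canonical divisor of a derivation of a curve -/
def kC (δ : Derivation K F F) : BD K F := if h : ∃ a, IsKC δ a then h.choose else 0

variable (K F) in
/-- `h⁰(0)`, the degree of the field of constants -/
def cst : ℕ := finrank K (0 : BD K F).Sec

open Classical in
variable (K F) in
/-- a nonzero derivation, if there is one -/
def d0 : Derivation K F F := if h : ∃ δ : Derivation K F F, δ ≠ 0 then h.choose else 0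

variable (K F) in
/-- `h⁰(K)`, the genus times the degree of the field of constants -/
def gn : ℕ := finrank K (kC (d0 K F)).Sec

theorem Sec_zero : (0 : BD K F).Sec = Subalgebra.toSubmodule (algebraicClosure K F).toSubalgebra := by
  ext x
  change _ ↔ x ∈ algebraicClosure K F
  rw [mem_algebraicClosure_iff, isAlgebraic_iff_isIntegral]
  refine ⟨fun h => ?_, fun h V => ?_⟩
  · have h1 : IsIntegral (⊥ : Subalgebra K F) x := Cns.isIntegral_of_val fun V hV =>
      RZ.le_one_iff.1 (h ⟨V, Cns.KV.of_le hV⟩)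
    haveI : Algebra.IsIntegral K (⊥ : Subalgebra K F) := inferInstance
    exact isIntegral_trans x h1
  · exact le_one_of_integral V.v V.v_alg_le h

theorem cst_eq : cst K F = finrank K (algebraicClosure K F) := by
  rw [cst, Sec_zero]
  rfl

theorem cst_of_closed (h : algebraicClosure K F = ⊥) : cst K F = 1 := by
  rw [cst_eq, h, IntermediateField.finrank_bot]

variable {δ δ' : Derivation K F F} {P : Pt K F} {a b : BD K F} {f g t : F}

section inst

variable [Algebra (RatFunc K) F] [IsScalarTower K (RatFunc K) F] [Algebra.IsSeparable (RatFunc K) F]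

theorem der_eq_del (δ : Derivation K F F) (f : F) : δ f = δ (xK K F) * del K F f := by
  rw [← δ.liftKaehlerDifferential_comp_D f, D_eq, map_smul, δ.liftKaehlerDifferential_comp_D,
    smul_eq_mul, mul_comm]

theorem der_xK_ne (hδ : δ ≠ 0) : δ (xK K F) ≠ 0 := fun h => hδ (Derivation.ext fun f => by
  rw [der_eq_del, h, zero_mul, Derivation.zero_apply])

theorem del_ne : del K F ≠ 0 := fun h => by
  have h1 := del_xK (k := K) (K := F)
  rw [h] at h1
  exact zero_ne_one h1

end inst

variable [CharZero K] [Algebra.EssFiniteType K F]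

theorem cst_pos : 0 < cst K F := eff_iff_finrank.1 Eff.zero

theorem cst_dvd (l : List (BD K F)) : (cst K F : ℤ) ∣ bnum l := by
  haveI : Module.Finite K (algebraicClosure K F) := Algebra.finite_of_essFiniteType_of_isAlgebraic
  rw [cst_eq]
  exact finrank_dvd_bnum l

theorem closed_of_cst (h : cst K F = 1) : algebraicClosure K F = ⊥ := by
  rw [cst_eq] at h
  exact IntermediateField.finrank_eq_one_iff.1 h

theorem cst_of_bnum {l : List (BD K F)} (h : bnum l = 1) : cst K F = 1 := by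
  have h1 := cst_dvd l
  rw [h] at h1
  exact_mod_cast Int.eq_one_of_dvd_one (Nat.cast_nonneg _) h1

variable (hd : dim K F = 1)

section inst

variable [Algebra (RatFunc K) F] [IsScalarTower K (RatFunc K) F] [FiniteDimensional (RatFunc K) F]
  [Algebra.IsSeparable (RatFunc K) F]

theorem isKC_can (hδ : δ ≠ 0) : IsKC δ (dvB hd (canD K F) + pr K (δ (xK K F))) := fun P t ht => by
  rw [der_eq_del, map_mul, v_del_eq P ht, map_add, exp_add, exp_ordP_pr (der_xK_ne hδ), ordP_dvB,
    mul_comm]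

end inst

include hd

theorem IsKC.unique (h : IsKC δ a) (h' : IsKC δ b) : a = b := ext_ordP hd fun P => by
  obtain ⟨t, -, ht⟩ := exists_v_eq P (-1)
  exact exp_inj.1 ((h P t ht).symm.trans (h' P t ht))

theorem isKC_kC (hδ : δ ≠ 0) : IsKC δ (kC δ) := by
  obtain ⟨_, _, _, _⟩ := (crv_of_dim hd).exists_alg
  have h : ∃ a, IsKC δ a := ⟨_, isKC_can hd hδ⟩
  rw [kC, dif_pos h]
  exact h.choose_spec

theorem v_der_unif (hδ : δ ≠ 0) (ht : P.v t = exp (-1)) : P.v (δ t) = exp (ordP P (kC δ)) :=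
  isKC_kC hd hδ P t ht

theorem IsKC.eq (hδ : δ ≠ 0) (h : IsKC δ a) : a = kC δ := h.unique hd (isKC_kC hd hδ)

theorem d0_ne : d0 K F ≠ 0 := by
  obtain ⟨_, _, _, _⟩ := (crv_of_dim hd).exists_alg
  have h : ∃ δ : Derivation K F F, δ ≠ 0 := ⟨_, del_ne⟩
  rw [d0, dif_pos h]
  exact h.choose_spec

theorem exists_smul (hδ : δ ≠ 0) (δ' : Derivation K F F) : ∃ g : F, δ' = g • δ := by
  obtain ⟨_, _, _, _⟩ := (crv_of_dim hd).exists_alg
  refine ⟨δ' (xK K F) / δ (xK K F), Derivation.ext fun f => ?_⟩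
  rw [Derivation.smul_apply, smul_eq_mul, der_eq_del δ f, der_eq_del δ' f, ← mul_assoc,
    div_mul_cancel₀ _ (der_xK_ne hδ)]

theorem kC_smul (hδ : δ ≠ 0) (hg : g ≠ 0) : kC (g • δ) = kC δ + pr K g := by
  refine (IsKC.eq hd (smul_ne_zero hg hδ) fun P t ht => ?_).symm
  rw [Derivation.smul_apply, smul_eq_mul, map_mul, v_der_unif hd hδ ht, map_add, exp_add,
    exp_ordP_pr hg, mul_comm]

theorem lin_kC (hδ : δ ≠ 0) (hδ' : δ' ≠ 0) : Lin (kC δ) (kC δ') := by
  obtain ⟨g, rfl⟩ := exists_smul hd hδ' δ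
  have hg : g ≠ 0 := fun h => hδ (by rw [h, zero_smul])
  exact ⟨g, hg, kC_smul hd hδ' hg⟩

theorem v_der_le (hδ : δ ≠ 0) (hf : P.v f ≤ 1) : P.v (δ f) ≤ exp (ordP P (kC δ)) := by
  obtain ⟨_, _, _, _⟩ := (crv_of_dim hd).exists_alg
  obtain ⟨t, -, ht⟩ := exists_v_eq P (-1)
  rw [← v_der_unif hd hδ ht, der_eq_del δ f, der_eq_del δ t, map_mul, map_mul]
  exact mul_le_mul_right (del_le_uniformizer P ht hf) _

/-- derivatives of regular functions are regular sections of the canonical divisor -/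
theorem der_le_val (hδ : δ ≠ 0) {V : RZ K F} (hf : f ∈ V.1) : V.v (δ f) ≤ (kC δ).val V := by
  rcases rz_cases hd V with rfl | ⟨P, rfl⟩
  · rw [val_top]
    exact RZ.le_one_iff.2 trivial
  · exact le_ordP_iff.1 (v_der_le hd hδ hf)

theorem exists_der_eq (hδ : δ ≠ 0) (V : RZ K F) : ∃ f ∈ V.1, V.v (δ f) = (kC δ).val V := by
  rcases rz_cases hd V with rfl | ⟨P, rfl⟩
  · obtain ⟨f, hf⟩ : ∃ f, δ f ≠ 0 := by
      by_contra h
      push Not at h
      exact hδ (Derivation.ext h)
    exact ⟨f, trivial, by rw [val_top, RZ.v_top hf]⟩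
  · obtain ⟨t, -, ht⟩ := exists_v_eq P (-1)
    exact ⟨t, mem_rzP.2 (ht ▸ (exp_le_exp.2 (by omega)).trans_eq exp_zero),
      eq_ordP_iff.1 (v_der_unif hd hδ ht)⟩



theorem finrank_kC (hδ : δ ≠ 0) : finrank K (kC δ).Sec = gn K F :=
  (lin_kC hd hδ (d0_ne hd)).finrank

/-- **Riemann-Roch** -/
theorem rr (hδ : δ ≠ 0) (a : BD K F) : (finrank K a.Sec : ℤ) - finrank K (kC δ - a).Sec =
    bnum [a] + cst K F - gn K F := by
  obtain ⟨_, _, _, _⟩ := (crv_of_dim hd).exists_alg
  have e : Lin (kC δ) (dvB hd (canD K F)) :=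
    ⟨_, der_xK_ne hδ, ((isKC_can hd hδ).eq hd hδ).symm⟩
  have e' : Lin (kC δ - a) (dvB hd (canD K F) - a) := by
    simpa only [sub_eq_add_neg] using e.add Lin.rfl
  rw [← finrank_kC hd hδ, e.finrank, e'.finrank, cst, bnum_eq_degD hd]
  simp only [finrank_eq_ell hd, map_sub, dvC_dvB, map_zero]
  rw [rr_chi]
  ring

theorem deg_kC (hδ : δ ≠ 0) : bnum [kC δ] = 2 * gn K F - 2 * cst K F := by
  have h := rr hd hδ (kC δ)
  rw [sub_self, finrank_kC hd hδ, ← cst] at h
  omega

theorem deg_kC_ge (hδ : δ ≠ 0) : -2 * (cst K F : ℤ) ≤ bnum [kC δ] := by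
  rw [deg_kC hd hδ]
  omega

theorem finrank_of_neg (h : bnum [a] < 0) : finrank K a.Sec = 0 := by
  by_contra h0
  exact absurd ((eff_iff_finrank.2 (Nat.pos_of_ne_zero h0)).bnum_nonneg (l := []) (by simp))
    h.not_ge



theorem riemann_le (a : BD K F) : bnum [a] + cst K F - gn K F ≤ finrank K a.Sec := by
  have h := rr hd (d0_ne hd) a
  omega

theorem finrank_of_lt (h : 2 * (gn K F : ℤ) - 2 * cst K F < bnum [a]) :
    (finrank K a.Sec : ℤ) = bnum [a] + cst K F - gn K F := by
  have h1 := rr hd (d0_ne hd) a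
  rwa [finrank_of_neg hd (a := kC _ - a) (by rw [bnum_sub, deg_kC hd (d0_ne hd)]; omega),
    Nat.cast_zero, sub_zero] at h1

/-! ### genus zero -/

theorem finrank_gn0 (hg : gn K F = 0) (h : -2 * (cst K F : ℤ) < bnum [a]) :
    (finrank K a.Sec : ℤ) = bnum [a] + cst K F := by
  rw [finrank_of_lt hd (by omega), hg]
  simp

theorem eff_gn0 (hg : gn K F = 0) (h : 0 ≤ bnum [a]) : Eff a := by
  have h1 := cst_pos (K := K) (F := F)
  have h2 := finrank_gn0 hd hg (a := a) (by omega)
  exact eff_iff_finrank.2 (by omega)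




/-- a curve of genus zero with a class of degree one is rational -/
theorem exists_rat (hg : gn K F = 0) (h : bnum [a] = 1) :
    ∃ t : F, Transcendental K t ∧ K⟮t⟯ = ⊤ := by
  have h1 := cst_of_bnum h
  obtain ⟨b, hb, e⟩ := eff_iff_lin.1 (eff_gn0 hd hg (a := a) (by omega))
  rw [e.bnum_eq] at h
  have h2 := finrank_gn0 hd hg (a := b) (by omega)
  obtain ⟨t, ht, h3⟩ : ∃ t ∈ b.Sec, t ∉ (0 : BD K F).Sec := by
    by_contra hc
    push Not at hc
    have h3 : finrank K b.Sec ≤ cst K F := Submodule.finrank_mono hc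
    omega
  have h4 : Transcendental K t := fun h4 => h3 (Sec_zero (K := K) (F := F) ▸
    mem_algebraicClosure_iff.2 h4)
  refine ⟨t, h4, IntermediateField.finrank_eq_one_iff_eq_top.1 ?_⟩
  have h5 : mxf K ![1, t] ≤ b := by
    rw [(free_mxf _).le_iff]
    exact Sec_mono fun V => by
      obtain ⟨i, hi⟩ := exists_val_mxf (k := K) (s := ![1, t]) ⟨0, by simp⟩ V
      rw [← hi]
      exact (Fin.forall_fin_two.2 ⟨nonneg_iff.1 hb, ht⟩ : ∀ i, ![1, t] i ∈ b.Sec) i V
  have h6 := bnum_mono1 (eff_sub_of_le h5).psef (l := []) (by simp)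
  rw [bnum_pole hd h4, h] at h6
  haveI : FiniteDimensional K⟮t⟯ F := by
    have h7 := dim_tower K K⟮t⟯ F
    have h8 : dim K K⟮t⟯ ≠ 0 := fun h0 => by
      have := dim_eq_zero_iff.1 h0
      exact h4 (isAlgebraic_iff.1 (Algebra.IsAlgebraic.isAlgebraic (AdjoinSimple.gen K t)))
    exact dim_eq_zero_iff.1 (by omega)
  have h7 : 0 < finrank K⟮t⟯ F := Module.finrank_pos
  omega

omit hd in
theorem dim_rat (ht : Transcendental K t) (h : K⟮t⟯ = ⊤) : dim K F = 1 := by
  have h1 : IsTranscendenceBasis K ![t] :=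
    (algebraicIndependent_iff_transcendental.2 ht).isTranscendenceBasis_iff_isAlgebraic.2 (by
      rw [← IntermediateField.isAlgebraic_adjoin_iff_top, Matrix.range_cons_empty, h]
      infer_instance)
  have h2 := h1.lift_cardinalMk_eq_trdeg
  rw [trdeg_eq_dim, Cardinal.mk_fin, Cardinal.lift_natCast, Cardinal.lift_natCast] at h2
  exact_mod_cast h2.symm

omit hd in
theorem bnum_pole_rat (ht : Transcendental K t) (h : K⟮t⟯ = ⊤) : bnum [mxf K ![1, t]] = 1 := by
  rw [bnum_pole (dim_rat ht h) ht, h, IntermediateField.finrank_top, Nat.cast_one]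

omit hd in
theorem cst_rat (ht : Transcendental K t) (h : K⟮t⟯ = ⊤) : cst K F = 1 :=
  cst_of_bnum (bnum_pole_rat ht h)

omit hd in
theorem gn_rat (ht : Transcendental K t) (h : K⟮t⟯ = ⊤) : gn K F = 0 := by
  have hd := dim_rat ht h
  have h1 := finrank_of_lt hd (a := (2 * gn K F) • mxf K ![1, t]) (by
    rw [bnum_nsmul, bnum_pole_rat ht h, cst_rat ht h]
    push_cast
    omega)
  rw [bnum_nsmul, bnum_pole_rat ht h, cst_rat ht h] at h1
  have h2 : ∀ i : Fin (2 * gn K F + 1), t ^ (i : ℕ) ∈ ((2 * gn K F) • mxf K ![1, t]).Sec := by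
    intro i
    obtain ⟨j, hj⟩ := Nat.exists_eq_add_of_le (Nat.lt_succ_iff.1 i.2)
    have h3 := mul_mem_Sec (pow_mem_Sec (mem_Sec_mxf (k := K) ![1, t] 1) i)
      (pow_mem_Sec (mem_Sec_mxf (k := K) ![1, t] 0) j)
    rw [← add_nsmul, ← hj] at h3
    simpa using h3
  have h3 : LinearIndependent K fun i : Fin (2 * gn K F + 1) => t ^ (i : ℕ) := by
    have h4 := (Polynomial.basisMonomials K).linearIndependent.map' (Polynomial.aeval t).toLinearMap
      (LinearMap.ker_eq_bot.2 (transcendental_iff_injective.1 ht))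
    have h5 := h4.comp _ (Fin.val_injective (n := 2 * gn K F + 1))
    simpa [Function.comp_def] using h5
  have h4 := (LinearIndependent.of_comp (Submodule.subtype _)
    (v := fun i => (⟨_, h2 i⟩ : ((2 * gn K F) • mxf K ![1, t]).Sec)) h3).fintype_card_le_finrank
  rw [Fintype.card_fin] at h4
  push_cast at h1
  omega

omit hd in
theorem deg_kC_rat (ht : Transcendental K t) (h : K⟮t⟯ = ⊤) (hδ : δ ≠ 0) : bnum [kC δ] = -2 := by
  rw [deg_kC (dim_rat ht h) hδ, gn_rat ht h, cst_rat ht h]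
  rfl

/-! ### Hurwitz -/

section Hur

variable {E : Type u} [Field E] [Algebra K E] [Algebra.EssFiniteType K E] (hE : dim K E = 1)
  {α : F →ₐ[K] E} {η : Derivation K E E}

include hE







end Hur

end Crest.Agent.X262.Loc
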