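import Crest.Agent.X262.Loc95.Kc
import Crest.Agent.X277.Neg.Loc

/-!
# Row 262 (helper95): curves in the language `nv`, `Dvs`

* `nv_rzP`, `dvs_iff_ne_top` : places and normalised valuations;
* `val_kC` : the canonical divisor is generated by the derivative of a uniformiser;
* `exists_can` : the same for a derivation over a subfield which kills the ground field.
-/

set_option autoImplicit false
set_option linter.unusedSectionVars false

noncomputable section

namespace Crest.Agent.X262.Loc

open Crest.Agent.X277 Crest.Agent.X277.BD Crest.Agent.X277.Pst WithZero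
open Crest.Agent.X277.Neg (nv IsNv)
open Crest.Agent.R013 RR12_948

universe u

variable {K F : Type u} [Field K] [Field F] [Algebra K F]

theorem unif_pt (P : Pt K F) : ∃ t, P.v t = exp (-1) :=
  (exists_v_eq P (-1)).imp fun _ h => h.2

theorem isNv_rzP (P : Pt K F) : IsNv (rzP P) P.v := ⟨unif_pt P, fun _ _ => rzP_le_iff.symm⟩

theorem nv_rzP (P : Pt K F) : nv (rzP P) = P.v :=
  AN.G2.val_eq_of_equiv (fun _ => (isNv_rzP P).nv.le_one) (isNv_rzP P).nv.unif (unif_pt P)

/-- a derivation which kills `K` is `K`-linear -/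
def toK {E : Type*} [Field E] [Algebra E F] (d : Derivation E F F)
    (h : ∀ c : K, d (algebraMap K F c) = 0) : Derivation K F F where
  toFun := d
  map_add' := map_add d
  map_smul' c x := by simp [Algebra.smul_def, h]
  map_one_eq_zero' := d.map_one_eq_zero
  leibniz' := d.leibniz

@[simp] theorem toK_apply {E : Type*} [Field E] [Algebra E F] (d : Derivation E F F)
    (h : ∀ c : K, d (algebraMap K F c) = 0) (x : F) : toK d h x = d x := rfl


variable [CharZero K] [Algebra.EssFiniteType K F] (hd : dim K F = 1) {V : RZ K F}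
  {δ : Derivation K F F} {t : F}
include hd

theorem exists_pt_of_ne (h : V.1 ≠ ⊤) : ∃ P, V = rzP P :=
  (rz_cases hd V).resolve_left fun h1 => h (h1 ▸ rfl)


theorem prm_iff_ne_top (H : BD K F) : Prm H V ↔ V.1 ≠ ⊤ := by
  refine ⟨fun h => h.1, fun h => ⟨h, ?_⟩⟩
  have h1 : Gj.dm K F - 1 = 0 := by rw [show Gj.dm K F = 1 from hd]
  rw [h1]
  refine ⟨Fin.elim0, fun i => i.elim0, fun i => i.elim0, fun p hp => ?_⟩
  obtain ⟨c, rfl⟩ := MvPolynomial.C_surjective (Fin 0) p
  rw [MvPolynomial.aeval_C]
  exact V.v_alg fun h0 => hp (by rw [h0, map_zero])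





end Crest.Agent.X262.Loc
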